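import Vale.Agent.P154.D6.K3.Charts

set_option maxRecDepth 100000

namespace Vale.Agent.P154.D6.K3

open Cert InT OutT

/-- Certificate tree. -/
def tr11_r : OutT :=
(A (A (A (A (A (A (O (c (c (c (c (c z (c (c l l) l)) (c (c l l) (c l l))) (c (c l l) (c l l))) (c (c (c l l) (c l l)) (c (c l l) (c l l)))) (c (c (d (c l l) (c l k)) k) k))) (A (B (A (O (c (c (c (c (c (c l (c l l)) (c (c l l) l)) (c (c l l) (c l l))) (c (c l l) (c l l))) (c (c (c l l) (c l l)) (c (c l l) (c l l)))) (c (c (d (c l l) (c l k)) k) k))) (O (c (c (c (c (c (c l (c l l)) (c (c l l) l)) (c (c l l) (c l l))) (c (c l l) (c l l))) (c (c (c l l) (c l l)) (c (c l l) (c l l)))) (c (c (d (c l l) (c l k)) k) k)))) (A (O (c (c (c (c (c (c l (c l l)) (c (c l l) l)) (c (c l l) (c l l))) (c (c l l) (c l l))) (c (c (c l l) (c l l)) (c (c l l) (c l l)))) (c (c (d (c l l) (c l k)) k) k))) (O (c (c (c (c (c (c l (c l l)) (c (c l l) l)) (c (c l l) (c l l))) (c (c l l) (c l l)))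 (c (c (c l l) (c l l)) (c (c l l) (c l l)))) (c (c (d (c l l) (c l k)) k) k))))) (O (c (c (c (c (c (c (c l l) (c l l)) (c (c l l) l)) (c (c l l) (c l l))) (c (c l l) (c l l))) (c (c (c l l) (c l l)) (c (c l l) (c l l)))) (c (c (d (c l l) (c l k)) k) k))))) (A (B (A (O (c (c (c (c (c (c l l) (c (c l l) l)) (c (c l l) (c l l))) (c (c l l) (c l l))) (c (c (c l l) (c l l)) (c (c l l) (c l l)))) (c (c (d (c l l) (c l k)) k) k))) (O (c (c (c (c (c l (c l l)) (c (c l l) (c l l))) (c (c l l) (c l l))) (c (c (c l l) (c l l)) (c (c l l) (c l l)))) (c (c (d (c l l) (c l k)) k) k)))) (A (O (c (c (c (c (c (c l l) (c (c l l) l)) (c (c l l) (c l l))) (c (c l l) (c l l))) (c (c (c l l) (c l l)) (c (c l l) (c l l)))) (c (c (d (c l l) (c l k)) k) k))) (O (c (c (c (c (c l (c l l)) (c (c l l) (c l l))) (c (c l l) (c l l))) (c (c (c l l) (c l l)) (c (c l l) (c l l)))) (c (c (d (c l l) (c l k)) k) k))))) (B (O (c (c (c (c (c (c l l) (c l (c l l))) (c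 (c l l) (c l l))) (c (c l l) (c l l))) (c (c (c l l) (c l l)) (c (c l l) (c l l)))) (c (c (d (c l l) (c l k)) k) k))) (O (c (c (c (c (c (c l (c l l)) (c (c l l) (c l l))) (c (c l l) (c l l))) (c (c (c l l) l) (c l l))) (c (c (c l l) (c l l)) (c (c l l) (c l l)))) (c (c (d (c l l) (c l k)) k) k)))))) (A (B (A (O (c (c (c (c (c l (c l l)) (c (c l l) (c l l))) (c (c l l) (c l l))) (c (c (c l l) (c l l)) (c (c l l) (c l l)))) (c (c (d (c l l) (c l k)) k) k))) (O (c (c (c (c l (c (c l l) (c l l))) (c (c l l) (c l l))) (c (c (c l l) (c l l)) (c (c l l) (c l l)))) (c (c (d (c l l) (c l k)) k) k)))) (A (O (c (c (c (c (c l (c l l)) (c (c l l) (c l l))) (c (c (c l l) l) (c l l))) (c (c (c l l) (c l l)) (c (c l l) (c l l)))) (c (c (d (c l l) (c l k)) k) k))) (O (c (c (c (c (c l l) (c (c l l) (c l l))) (c (c (c l l) l) (c l l))) (c (c (c l l) (c l l)) (c (c l l) (c l l)))) (c (c (d (c l l) (c l k)) k) k))))) (B (A (O (c (c (c (c l (c l (c l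 l))) (c (c l l) (c l l))) (c (c (c l l) (c l l)) (c (c l l) (c l l)))) (c (c (d (c l l) (c l k)) k) k))) (O (c (c (c (c l (c l l)) (c (c l l) (c l l))) (c (c (c l l) (c l l)) (c (c l l) (c l l)))) (c (c (d (c l l) (c l k)) k) k)))) (A (O (c (c (c (c l (c l (c l l))) (c (c (c l l) l) (c l l))) (c (c (c l l) (c l l)) (c (c l l) (d l l)))) (c (c (d (c l l) (c l k)) k) k))) (O (c (c (c (c l (c l l)) (c (c (c l l) (c l l)) (c l l))) (c (c (c l l) (c l l)) (c (c l l) (d l l)))) (c (c (d (c l l) (c l k)) k) k))))))) (A (B (A (O (c (c (c (c (c l l) (c (c l l) (c l l))) (c (c (c l l) (c l l)) (c l l))) (c (c (c l l) (c l l)) (c (c l l) (d l l)))) (c (c (d (c l l) (c l k)) k) k))) (O (c (c (c (c l (c l l)) (c (c l (c l l)) (c (c l l) l))) (c (c (c l l) (c l l)) (c (c l l) (d l l)))) (c (c (d (c l l) (c l k)) k) k)))) (A (O (c (c (c (c (c l (c l l)) (c (c (c l l) (c (c l l) (d l (c l l)))) (c (d l (c (c l l) (c l l))) (d l (c (c l l) l)))))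 (c (c (d (c l l) (c (c (c l l) (c l l)) (c (c l l) l))) (c (d l (c l l)) (c l l))) (c (c l l) (c l l)))) (c (c (c (c l l) (c l l)) (c (c l l) (c l l))) (c (d l l) (d l l)))) (c (c (d (c l l) (c l k)) k) k))) (O (c (c (c (c l (c l (c l (c l l)))) (c (c (d l (c l l)) (d l (c (c l l) (c l l)))) (c (d (c l l) (c (c l l) l)) (c (c l l) l)))) (c (c (c (c l l) (c l l)) (c (c l l) (c l l))) (c (d l (c l l)) (d l l)))) (c (c (d (c l l) (c l k)) k) k))))) (B (A (O (c (c (c (c l l) (c (c l l) (c l l))) (c (c (c l l) (c l l)) (c (c l l) (d l l)))) (c (c (d (c l l) (c l k)) k) k))) (O (c (c (c l (c (c l l) (c l l))) (c (c (c l l) (c l l)) (c (c l l) (d l l)))) (c (c (d (c l l) (c l k)) k) k)))) (A (O (c (c (c (c l (c l l)) (c (c (c l l) (c (c l l) (c l l))) (c (d l (c l l)) (d l (c l l))))) (c (c (c (d l (c l l)) (c l l)) (c (c l l) (c l l))) (c (d (c l l) (c l l)) (d l (c l l))))) (c (c (d (c l l) (c l k)) k) k))) (O (c (c (c l (c (c l (c l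 l)) (d l (c l l)))) (c (c (c (d l (c l l)) (d l l)) (c (c l l) (c l l))) (c (c (c l l) (c l l)) (d l (c l l))))) (c (c (d (c l l) (c l k)) k) k))))))) (A (B (A (B (O (c (c (c (c l l) (c (c l (c l l)) (c (c l l) l))) (c (c (c l l) (c l l)) (c (c l l) (c l l)))) (c (c (d (c l l) (c l k)) k) k))) (O (c (c (c (c l l) (c (c (d l (c l l)) (d l (c l (c l l)))) (d (c l l) (c (d l (c l l)) (d l (c l l)))))) (c (c (c (d l l) (d l l)) (c (c l l) l)) (c (c l l) (d l l)))) (c (c (d (c l l) (c l k)) k) k)))) (B (O (c (c (c l (c l (c l l))) (c (c (c l l) l) (c l (c l l)))) (c (c (c (c l l) (d l k)) k) k))) (O (c (c (c l (c l (c l l))) (c (c (d l (c l l)) (c l l)) (c (c l l) (c l l)))) (c (c (c (d l l) (d l k)) k) k))))) (A (B (A (O (c (c (c l (c l l)) (c (c (c l l) (c l l)) (c (c l l) (d l l)))) (c (c (d (c l l) (c l k)) k) k))) (O (c (c (c l l) (c (c l (c l l)) (c (c l l) (c l l)))) (c (c (d (c l l) (c l k)) k) k)))) (A (O (c (c (c l (c l (c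 l l))) (c (c (c l l) (c l l)) (c (c l l) (d l (c l l))))) (c (c (d (c l l) (c l k)) k) k))) (O (c (c (c l l) (c (c l (c l l)) (c (c l l) (c l l)))) (c (c (c (d l l) (d l k)) k) k))))) (B (O (c (c (c l (c l (d l (c l l)))) (c (c (d l (c (c l l) (c l l))) (d (c l l) (c (c l l) l))) (c (d l (c l l)) (c l (c l l))))) (c (c (c (d l l) (d l k)) k) k))) (O (c (c (c l (c l (d l (c l (c l l))))) (c (c (d (c l l) (c (d l (c (c l l) (d l (c l (c l l))))) (d (c l l) (d (c l l) (c (c (d l (c l l)) (d l (c l l))) (d (c l l) (c (c l l) (c l l)))))))) (d (d l (c l l)) (c (d (c l l) (d (c l l) (c (d l (c l l)) l))) (d l (c l l))))) (c (d (c l l) (c (c l l) l)) (c (c l l) (c l l))))) (c (c (c (d l (c l l)) (d l k)) k) k)))))) (B (A (B (O (c (c (c l (c l l)) (c (c l l) (c l l))) (c (c (c (c l l) (d l k)) k) k))) (O (c (c (c l l) (c (c l l) (c (c l l) l))) (c (c (c (c l l) (d l k)) k) k)))) (B (O (c (c (c l l) (c (c l l) (c l l))) (c (c (c l (c l k))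 k) k))) (O (c (c l (c (c l l) (c l l))) (c (c (c l (c l k)) k) k))))) (A (B (O (c (c l (c (d l (c l l)) (c (c l l) (c l l)))) (c (c (c (c l l) (d l k)) k) k))) (O (c (c l (c (c l (c l l)) (c (d l (c l l)) (d l l)))) (c (c (c (d l l) (d l k)) k) k)))) (B (O (c (c l (c l (c l l))) (c (c (c l (d l k)) k) k))) (O (c (c l (c l (c l l))) (c (c (c l (c l k)) k) k)))))))) (A (B (A (B (A (O (c (c l (c l (c l l))) (c (c (c l (c l k)) k) k))) (O (c (c l (c l (c l l))) (c (c (c l (c l k)) k) k)))) (A (O (c (c l (c l (c l l))) (c (c (c l (c l k)) k) k))) s)) s) (A (B (A (O (c (c l (c l l)) (c (c (c l l) k) k))) s) (A (O (c (c l (c l l)) (c (c (c l l) k) k))) s)) s)) s))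

theorem s11_r : Sound P11 0 32768 0 32768 :=
  chkOut2_sound P11 KK tr11_r 0 32768 0 32768 (by decide +kernel)

end Vale.Agent.P154.D6.K3
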